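import Vale.Agent.Lib.P002.G1Defs

/-!
Normal form of a pair of complex matrices of determinant one whose commutator is upper
triangular and whose product, with columns reversed, is upper triangular.
-/

namespace Vale.Agent.Lib.P002.H68

open Matrix
open Vale.Agent.Lib.P002

private theorem cancel_l {n : ℕ} {X Y : Matrix (Fin n) (Fin n) ℂ} (h : X * Y = 1)
    (Z : Matrix (Fin n) (Fin n) ℂ) : X * (Y * Z) = Z := by
  rw [← Matrix.mul_assoc, h, Matrix.one_mul]

theorem g1_chart_normal {n : ℕ} (δ : Fin n → ℂ) (A B : Matrix (Fin n) (Fin n) ℂ)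
    (hA : A.det = 1) (hB : B.det = 1)
    (hK : ∀ i j, j < i → cmm A B i j = 0) (hKd : ∀ i, cmm A B i i = δ i)
    (hc : ∀ i j, j < i → (B * A * revM ℂ n) i j = 0)
    (htr : trailDet n (B * revM ℂ n) ≠ 0) :
    ∃ U Lo l b : Matrix (Fin n) (Fin n) ℂ,
      (∀ i j, j < i → U i j = 0) ∧ (∀ i, U i i ≠ 0) ∧ (∀ i j, i < j → Lo i j = 0) ∧
      (∀ i, Lo i i ≠ 0) ∧ (∀ i j, i < j → l i j = 0) ∧ (∀ i, l i i = 1) ∧
      (∀ i j, j < i → b i j = 0) ∧
      (∀ i, b i i = δ i * U i i * Lo (Fin.rev i) (Fin.rev i)) ∧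
      U * Lo = l * b ∧ U * Lo = B * revM ℂ n ∧ Lo.det = 1 ∧ U.det = (revM ℂ n).det ∧
      A = revM ℂ n * Lo.adjugate * revM ℂ n * l.adjugate ∧ B = U * Lo * revM ℂ n := by
  classical
  have hww : revM ℂ n * revM ℂ n = 1 := revM_mul_revM n
  have hdw : (revM ℂ n).det * (revM ℂ n).det = 1 := det_revM_mul_self n
  have hdw0 : (revM ℂ n).det ≠ 0 := by
    intro h
    rw [h, zero_mul] at hdw
    exact zero_ne_one hdw
  obtain ⟨V, T, hV, hV1, hT, hM⟩ := exists_ul n (B * revM ℂ n) htr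
  have hdV : V.det = 1 := by
    rw [det_ut hV]
    exact Finset.prod_eq_one (fun i _ => hV1 i)
  have hdT : T.det = (revM ℂ n).det := by
    have h := congrArg Matrix.det hM
    rw [Matrix.det_mul, Matrix.det_mul, hB, hdV, one_mul, one_mul] at h
    exact h.symm
  have hT0 : ∀ i, T i i ≠ 0 := by
    intro i
    have hne : ∏ i, T i i ≠ 0 := by
      rw [← det_lt hT, hdT]
      exact hdw0
    exact (Finset.prod_ne_zero_iff.mp hne) i (Finset.mem_univ i)
  -- the matrix B A w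
  obtain ⟨cc, hcc⟩ : ∃ cc : Matrix (Fin n) (Fin n) ℂ, cc = B * A * revM ℂ n := ⟨_, rfl⟩
  have hcu : ∀ i j, j < i → cc i j = 0 := by
    rw [hcc]
    exact hc
  have hdc : cc.det = (revM ℂ n).det := by
    rw [hcc, Matrix.det_mul, Matrix.det_mul, hB, hA, one_mul, one_mul]
  have hc0 : ∀ i, cc i i ≠ 0 := by
    intro i
    have hne : ∏ i, cc i i ≠ 0 := by
      rw [← det_ut hcu, hdc]
      exact hdw0
    exact (Finset.prod_ne_zero_iff.mp hne) i (Finset.mem_univ i)
  have hccw : cc * revM ℂ n = B * A := by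
    rw [hcc, Matrix.mul_assoc, hww, Matrix.mul_one]
  -- the diagonal of cc and its inverse
  obtain ⟨D, hD⟩ : ∃ D : Matrix (Fin n) (Fin n) ℂ, D = Matrix.diagonal (fun i => cc i i) :=
    ⟨_, rfl⟩
  obtain ⟨Di, hDi⟩ :
      ∃ Di : Matrix (Fin n) (Fin n) ℂ, Di = Matrix.diagonal (fun i => (cc i i)⁻¹) := ⟨_, rfl⟩
  have hDDi : D * Di = 1 := by
    rw [hD, hDi, Matrix.diagonal_mul_diagonal, ← Matrix.diagonal_one]
    congr 1
    funext i
    exact mul_inv_cancel₀ (hc0 i)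
  have hDiD : Di * D = 1 := by
    rw [hD, hDi, Matrix.diagonal_mul_diagonal, ← Matrix.diagonal_one]
    congr 1
    funext i
    exact inv_mul_cancel₀ (hc0 i)
  have hDu : ∀ i j, j < i → D i j = 0 := by
    intro i j hij
    rw [hD]
    exact Matrix.diagonal_apply_ne _ (ne_of_lt hij).symm
  have hDd : ∀ i, D i i = cc i i := by
    intro i
    rw [hD, Matrix.diagonal_apply_eq]
  have hDiu : ∀ i j, j < i → Di i j = 0 := by
    intro i j hij
    rw [hDi]
    exact Matrix.diagonal_apply_ne _ (ne_of_lt hij).symm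
  have hDil : ∀ i j, i < j → Di i j = 0 := by
    intro i j hij
    rw [hDi]
    exact Matrix.diagonal_apply_ne _ (ne_of_lt hij)
  have hDid : ∀ i, Di i i = (cc i i)⁻¹ := by
    intro i
    rw [hDi, Matrix.diagonal_apply_eq]
  -- U and Lo
  obtain ⟨U, hU⟩ : ∃ U : Matrix (Fin n) (Fin n) ℂ, U = V * D := ⟨_, rfl⟩
  obtain ⟨Lo, hLo⟩ : ∃ Lo : Matrix (Fin n) (Fin n) ℂ, Lo = Di * T := ⟨_, rfl⟩
  have hUu : ∀ i j, j < i → U i j = 0 := by
    rw [hU]
    exact ut_mul hV hDu
  have hUd : ∀ i, U i i = cc i i := by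
    intro i
    rw [hU, ut_mul_diag hV hDu, hV1, one_mul, hDd]
  have hLol : ∀ i j, i < j → Lo i j = 0 := by
    rw [hLo]
    exact lt_mul hDil hT
  have hLod : ∀ i, Lo i i = (cc i i)⁻¹ * T i i := by
    intro i
    rw [hLo, lt_mul_diag hDil hT, hDid]
  have hULo : U * Lo = B * revM ℂ n := by
    rw [hU, hLo, hM, Matrix.mul_assoc, cancel_l hDDi]
  -- inverses of U and Lo
  obtain ⟨Ui, hUi⟩ : ∃ Ui : Matrix (Fin n) (Fin n) ℂ, Ui = Di * V.adjugate := ⟨_, rfl⟩
  have hUUi : U * Ui = 1 := by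
    rw [hU, hUi, Matrix.mul_assoc, cancel_l hDDi, mul_adjugate_of_det hdV]
  have hUiu : ∀ i j, j < i → Ui i j = 0 := by
    rw [hUi]
    exact ut_mul hDiu (ut_adjugate hV hdV)
  have hVad : ∀ i, V.adjugate i i = 1 := by
    intro i
    have h := ut_adjugate_diag hV hdV i
    rw [hV1, mul_one] at h
    exact h
  have hUid : ∀ i, Ui i i = (cc i i)⁻¹ := by
    intro i
    rw [hUi, ut_mul_diag hDiu (ut_adjugate hV hdV), hDid, hVad, mul_one]
  have hTu : IsUnit T.det := by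
    rw [hdT]
    exact isUnit_iff_ne_zero.mpr hdw0
  obtain ⟨Loi, hLoi⟩ : ∃ Loi : Matrix (Fin n) (Fin n) ℂ, Loi = T⁻¹ * D := ⟨_, rfl⟩
  have hLoLoi : Lo * Loi = 1 := by
    rw [hLo, hLoi, Matrix.mul_assoc, cancel_l (Matrix.mul_nonsing_inv T hTu), hDiD]
  -- the lower unitriangular matrix li and its inverse l
  obtain ⟨li, hli⟩ :
      ∃ li : Matrix (Fin n) (Fin n) ℂ, li = revM ℂ n * (Ui * cc) * revM ℂ n := ⟨_, rfl⟩
  have hXu : ∀ i j, j < i → (Ui * cc) i j = 0 := ut_mul hUiu hcu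
  have hXd : ∀ i, (Ui * cc) i i = 1 := by
    intro i
    rw [ut_mul_diag hUiu hcu, hUid]
    exact inv_mul_cancel₀ (hc0 i)
  have hlil : ∀ i j, i < j → li i j = 0 := by
    intro i j hij
    rw [hli, revM_conj]
    exact hXu _ _ (Fin.rev_lt_rev.mpr hij)
  have hlid : ∀ i, li i i = 1 := by
    intro i
    rw [hli, revM_conj]
    exact hXd _
  have hdli : li.det = 1 := by
    rw [det_lt hlil]
    exact Finset.prod_eq_one (fun i _ => hlid i)
  obtain ⟨l, hl⟩ : ∃ l : Matrix (Fin n) (Fin n) ℂ, l = li.adjugate := ⟨_, rfl⟩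
  have hll : ∀ i j, i < j → l i j = 0 := by
    rw [hl]
    exact lt_adjugate hlil hdli
  have hld : ∀ i, l i i = 1 := by
    intro i
    have h := lt_adjugate_diag hlil hdli i
    rw [hlid, mul_one] at h
    rw [hl]
    exact h
  have hlli : l * li = 1 := by
    rw [hl]
    exact adjugate_mul_of_det hdli
  have hdl : l.det = 1 := by
    rw [det_lt hll]
    exact Finset.prod_eq_one (fun i _ => hld i)
  have hladj : l.adjugate = li := by
    rw [adjugate_eq_inv hdl]
    exact Matrix.inv_eq_right_inv hlli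
  -- B and A
  have hBeq : B = U * Lo * revM ℂ n := by
    rw [hULo, Matrix.mul_assoc, hww, Matrix.mul_one]
  have hBadj : B.adjugate * B = 1 := adjugate_mul_of_det hB
  have hAadj : A.adjugate * A = 1 := adjugate_mul_of_det hA
  have hAeq : A = revM ℂ n * Loi * revM ℂ n * li := by
    have h1 : B * (revM ℂ n * Loi * revM ℂ n * li) = B * A := by
      rw [← hccw, hli]
      conv_lhs => rw [hBeq]
      simp only [Matrix.mul_assoc, cancel_l hww, cancel_l hLoLoi, cancel_l hUUi]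
    have h2 : B.adjugate * (B * (revM ℂ n * Loi * revM ℂ n * li)) = B.adjugate * (B * A) := by
      rw [h1]
    rw [cancel_l hBadj, cancel_l hBadj] at h2
    exact h2.symm
  have hdLoi : Loi.det = 1 := by
    have h := congrArg Matrix.det hAeq
    rw [Matrix.det_mul, Matrix.det_mul, Matrix.det_mul, hA, hdli, mul_one] at h
    have h3 : (revM ℂ n).det * Loi.det * (revM ℂ n).det
        = ((revM ℂ n).det * (revM ℂ n).det) * Loi.det := by ring
    rw [h3, hdw, one_mul] at h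
    exact h.symm
  have hdLo : Lo.det = 1 := by
    have h := congrArg Matrix.det hLoLoi
    rw [Matrix.det_mul, hdLoi, mul_one, Matrix.det_one] at h
    exact h
  have hLoadj : Lo.adjugate = Loi := by
    rw [adjugate_eq_inv hdLo]
    exact Matrix.inv_eq_right_inv hLoLoi
  have hdU : U.det = (revM ℂ n).det := by
    have h := congrArg Matrix.det hULo
    rw [Matrix.det_mul, Matrix.det_mul, hdLo, hB, mul_one, one_mul] at h
    exact h
  -- the upper triangular matrix b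
  have hKBA : cmm A B * (B * A) = A * B := by
    unfold cmm
    simp only [Matrix.mul_assoc, cancel_l hBadj, hAadj, Matrix.mul_one]
  have hKcc : cmm A B * cc = A * B * revM ℂ n := by
    calc cmm A B * cc = cmm A B * (B * A) * revM ℂ n := by
          rw [hcc]
          simp only [Matrix.mul_assoc]
      _ = A * B * revM ℂ n := by rw [hKBA]
  obtain ⟨b, hb⟩ : ∃ b : Matrix (Fin n) (Fin n) ℂ,
      b = revM ℂ n * Lo * revM ℂ n * cmm A B * cc := ⟨_, rfl⟩
  have hWu : ∀ i j, j < i → (revM ℂ n * Lo * revM ℂ n) i j = 0 := by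
    intro i j hij
    rw [revM_conj]
    exact hLol _ _ (Fin.rev_lt_rev.mpr hij)
  have hbu : ∀ i j, j < i → b i j = 0 := by
    rw [hb]
    exact ut_mul (ut_mul hWu hK) hcu
  have hbd : ∀ i, b i i = δ i * U i i * Lo (Fin.rev i) (Fin.rev i) := by
    intro i
    rw [hb, ut_mul_diag (ut_mul hWu hK) hcu, ut_mul_diag hWu hK, revM_conj, hKd, hUd]
    ring
  have hbeq : b = li * (B * revM ℂ n) := by
    rw [hb]
    calc revM ℂ n * Lo * revM ℂ n * cmm A B * cc
        = revM ℂ n * Lo * revM ℂ n * (cmm A B * cc) := by simp only [Matrix.mul_assoc]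
      _ = revM ℂ n * Lo * revM ℂ n * (A * B * revM ℂ n) := by rw [hKcc]
      _ = li * (B * revM ℂ n) := by
          conv_lhs => rw [hAeq]
          simp only [Matrix.mul_assoc, cancel_l hww, cancel_l hLoLoi]
  have hULolb : U * Lo = l * b := by
    rw [hbeq, cancel_l hlli, hULo]
  refine ⟨U, Lo, l, b, hUu, ?_, hLol, ?_, hll, hld, hbu, hbd, hULolb, hULo, hdLo, hdU, ?_, hBeq⟩
  · intro i
    rw [hUd]
    exact hc0 i
  · intro i
    rw [hLod]
    exact mul_ne_zero (inv_ne_zero (hc0 i)) (hT0 i)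
  · rw [hLoadj, hladj]
    exact hAeq

end Vale.Agent.Lib.P002.H68

namespace Vale.Agent.Lib.P002.H68.Check

open Matrix
open Vale.Agent.Lib.P002

example : ∀ {n : ℕ} (δ : Fin n → ℂ) (A B : Matrix (Fin n) (Fin n) ℂ)
    (_ : A.det = 1) (_ : B.det = 1)
    (_ : ∀ i j, j < i → cmm A B i j = 0) (_ : ∀ i, cmm A B i i = δ i)
    (_ : ∀ i j, j < i → (B * A * revM ℂ n) i j = 0)
    (_ : trailDet n (B * revM ℂ n) ≠ 0),
    ∃ U Lo l b : Matrix (Fin n) (Fin n) ℂ,
      (∀ i j, j < i → U i j = 0) ∧ (∀ i, U i i ≠ 0) ∧ (∀ i j, i < j → Lo i j = 0) ∧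
      (∀ i, Lo i i ≠ 0) ∧ (∀ i j, i < j → l i j = 0) ∧ (∀ i, l i i = 1) ∧
      (∀ i j, j < i → b i j = 0) ∧
      (∀ i, b i i = δ i * U i i * Lo (Fin.rev i) (Fin.rev i)) ∧
      U * Lo = l * b ∧ U * Lo = B * revM ℂ n ∧ Lo.det = 1 ∧ U.det = (revM ℂ n).det ∧
      A = revM ℂ n * Lo.adjugate * revM ℂ n * l.adjugate ∧ B = U * Lo * revM ℂ n :=
  @Vale.Agent.Lib.P002.H68.g1_chart_normal

end Vale.Agent.Lib.P002.H68.Check
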